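import Vale.Agent.N188G.Defs
import Vale.Agent.P188.Reduce
import Vale.Agent.P188.QI

/-!
P188: comparison with the definitions of the starting files; criteria for coarse equivalence.
-/

universe u v w

namespace Vale.Agent.N188G

open Set Vale.Agent.P188 Pointwise

section series

variable {G : Type u} [Group G]

theorem cycStep_of_cycQ {A B : Subgroup G} (h : CycQ A B) : ∃ t, CycStep A B t := by
  obtain ⟨hle, hn, hc⟩ := h
  obtain ⟨q, hq⟩ := hc.exists_generator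
  obtain ⟨t, rfl⟩ := QuotientGroup.mk_surjective q
  refine ⟨t, hle, t.2, ?_, ?_, ?_⟩
  · intro n hn'
    have := hn.conj_mem ⟨n, hle hn'⟩ hn' t
    simpa [Subgroup.mem_subgroupOf] using this
  · intro n hn'
    have := hn.conj_mem ⟨n, hle hn'⟩ hn' t⁻¹
    simpa [Subgroup.mem_subgroupOf] using this
  · intro g hg
    obtain ⟨k, hk⟩ := Subgroup.mem_zpowers_iff.1 (hq (QuotientGroup.mk (⟨g, hg⟩ : B)))
    refine ⟨k, ?_⟩
    rw [← QuotientGroup.mk_zpow, QuotientGroup.eq] at hk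
    simpa [Subgroup.mem_subgroupOf] using hk

theorem cycStep_map {G' : Type v} [Group G'] (f : G →* G') {N M : Subgroup G} {t : G}
    (hs : CycStep N M t) : CycStep (N.map f) (M.map f) (f t) := by
  refine ⟨Subgroup.map_mono hs.le, Subgroup.mem_map_of_mem f hs.mem, ?_, ?_, ?_⟩
  · rintro _ ⟨n, hn, rfl⟩
    exact ⟨t * n * t⁻¹, hs.conj n hn, by simp⟩
  · rintro _ ⟨n, hn, rfl⟩
    exact ⟨t⁻¹ * n * t, hs.conj' n hn, by simp⟩
  · rintro _ ⟨g, hg, rfl⟩
    obtain ⟨k, hk⟩ := hs.dec g hg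
    exact ⟨k, ⟨_, hk, by simp⟩⟩

theorem virtPoly_iff : VirtPoly G ↔ IsVirtuallyPolycyclic G := by
  rw [isVirtuallyPolycyclic_iff]
  constructor
  · rintro ⟨s, h0, hf⟩
    refine ⟨s.last, hf, ?_⟩
    have key : ∀ i : Fin (s.length + 1), PCS (s i) := by
      intro i
      induction i using Fin.induction with
      | zero => rw [show s 0 = ⊥ from h0]; exact .bot
      | succ i ih =>
        obtain ⟨t, ht⟩ := cycStep_of_cycQ (s.step i)
        exact .step ih ht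
    exact key _
  · rintro ⟨P, hP, h⟩
    obtain ⟨m, s, h0, hm, hs⟩ := h.exists_series
    refine ⟨⟨m, fun i => s i, fun i => hs i i.2⟩, h0, ?_⟩
    show (s m).FiniteIndex
    rwa [hm]

theorem VirtPoly.exists_le (h : VirtPoly G) : ∃ N, VirtPolyLE G N := by
  obtain ⟨s, h0, hf⟩ := h
  exact ⟨max s.length s.last.index, s, h0, hf, le_max_left _ _, le_max_right _ _⟩

theorem VirtPolyLE.mono {N N' : ℕ} (h : VirtPolyLE G N) (hN : N ≤ N') : VirtPolyLE G N' := by
  obtain ⟨s, h0, hf, h1, h2⟩ := h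
  exact ⟨s, h0, hf, h1.trans hN, h2.trans hN⟩

theorem VirtPolyLE.map {G' : Type v} [Group G'] (f : G →* G') (hf : Function.Surjective f)
    {N : ℕ} (h : VirtPolyLE G N) : VirtPolyLE G' N := by
  obtain ⟨s, h0, hfi, h1, h2⟩ := h
  have hd := Subgroup.index_map_dvd s.last hf
  refine ⟨⟨s.length, fun i => (s i).map f, fun i => ?_⟩, ?_, ⟨?_⟩, h1, ?_⟩
  · obtain ⟨t, ht⟩ := cycStep_of_cycQ (s.step i)
    exact (cycStep_map f ht).cycQ
  · show s.head.map f = ⊥
    rw [h0, Subgroup.map_bot]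
  · exact ne_zero_of_dvd_ne_zero hfi.index_ne_zero hd
  · exact (Nat.le_of_dvd (Nat.pos_of_ne_zero hfi.index_ne_zero) hd).trans h2

end series

section word

variable {G : Type u} [Group G]

theorem walk_of_list (S : Set G) : ∀ (l : List G) (x : G), (∀ a ∈ l, a ∈ S ∨ a⁻¹ ∈ S) →
    ∃ w : (SimpleGraph.mulCayley S).Walk x (x * l.prod), w.length ≤ l.length
  | [], x, _ => ⟨(SimpleGraph.Walk.nil).copy rfl (by simp), by
      rw [SimpleGraph.Walk.length_copy]; simp⟩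
  | a :: l, x, h => by
    obtain ⟨w, hw⟩ := walk_of_list S l (x * a) fun b hb => h b (List.mem_cons_of_mem _ hb)
    by_cases ha : a = 1
    · subst ha
      exact ⟨w.copy (by simp) (by simp), by
        rw [SimpleGraph.Walk.length_copy, List.length_cons]; omega⟩
    · have hadj : (SimpleGraph.mulCayley S).Adj x (x * a) := by
        rw [SimpleGraph.mulCayley_adj]
        refine ⟨by simpa using ha, ?_⟩
        simpa using h a List.mem_cons_self
      exact ⟨(SimpleGraph.Walk.cons hadj w).copy rfl (by simp [mul_assoc]), by simp; omega⟩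

theorem list_of_walk (S : Set G) {x y : G} (w : (SimpleGraph.mulCayley S).Walk x y) :
    ∃ l : List G, l.length = w.length ∧ (∀ a ∈ l, a ∈ S ∨ a⁻¹ ∈ S) ∧ l.prod = x⁻¹ * y := by
  induction w with
  | nil => exact ⟨[], rfl, by simp, by simp⟩
  | @cons x z y hadj w ih =>
    obtain ⟨l, h1, h2, h3⟩ := ih
    rw [SimpleGraph.mulCayley_adj] at hadj
    refine ⟨(x⁻¹ * z) :: l, by simp [h1], ?_, by simp [h3]⟩
    intro a ha
    rcases List.mem_cons.1 ha with rfl | ha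
    · simpa using hadj.2
    · exact h2 a ha

theorem wd_eq {S : Finset G} (hS : Subgroup.closure (S : Set G) = ⊤) (x y : G) :
    wd S x y = wordDist (S : Set G) x y := by
  obtain ⟨l, h1, h2, h3⟩ := wordDist_list hS x y
  obtain ⟨w, hw⟩ := walk_of_list (S : Set G) l x h2
  let w' : (SimpleGraph.mulCayley (S : Set G)).Walk x y := w.copy rfl (by simp [h3])
  have hw' : w'.length ≤ wordDist (S : Set G) x y := by simpa [w', h1] using hw
  unfold wd
  congr 1
  refine le_antisymm ((SimpleGraph.dist_le w').trans hw') ?_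
  obtain ⟨p, hp⟩ := w'.reachable.exists_walk_length_eq_dist
  obtain ⟨l', k1, k2, k3⟩ := list_of_walk _ p
  exact Nat.sInf_le ⟨l', k1.trans hp, k2, k3⟩

end word

section coarse

variable {H : Type u} {G : Type v} [Group H] [Group G]

theorem coarseEquiv_of (F : H → G) (h1 : Coarse F)
    (h2 : ∀ B : Set G, B.Finite → ∃ A : Set H, A.Finite ∧
      ∀ x y, (F x)⁻¹ * F y ∈ B → x⁻¹ * y ∈ A)
    (h3 : ∃ E : Set G, E.Finite ∧ ∀ y, ∃ x, y⁻¹ * F x ∈ E) : CoarseEquiv H G := by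
  obtain ⟨E, hE, hE'⟩ := h3
  choose F' hF' using hE'
  refine ⟨F, F', h1, ?_, ?_, ⟨E, hE, hF'⟩⟩
  · intro B hB
    obtain ⟨A, hA, hA'⟩ := h2 _ ((hE.inv.mul hB).mul hE)
    refine ⟨A, hA, fun x y hxy => hA' _ _ ?_⟩
    refine ⟨(x⁻¹ * F (F' x))⁻¹ * (x⁻¹ * y), ⟨_, Set.inv_mem_inv.mpr (hF' x), _, hxy, rfl⟩,
      y⁻¹ * F (F' y), hF' y, ?_⟩
    simp only
    group
  · obtain ⟨A, hA, hA'⟩ := h2 E hE
    exact ⟨A, hA, fun x => hA' _ _ (hF' (F x))⟩

theorem fg_of_coarseEquiv (h : CoarseEquiv H G) (hG : Group.FG G) : Group.FG H := by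
  obtain ⟨F, F', -, hF', ⟨E, hE, hE'⟩, -⟩ := h
  obtain ⟨T, hT, hTf⟩ := Group.fg_iff.1 hG
  obtain ⟨B, hB, hB'⟩ := hF' (T ∪ T⁻¹) (hTf.union hTf.inv)
  refine Group.fg_iff.2 ⟨(B ∪ E) ∪ {F' 1}, ?_, (hB.union hE).union (finite_singleton _)⟩
  set L := Subgroup.closure ((B ∪ E) ∪ {F' 1}) with hL
  have key : ∀ g : G, F' g ∈ L := by
    intro g
    have hg : g ∈ Subgroup.closure T := hT ▸ Subgroup.mem_top g
    induction hg using Subgroup.closure_induction_right with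
    | one => exact Subgroup.subset_closure (Or.inr rfl)
    | mul_right x _ y hy ih =>
      have : (F' x)⁻¹ * F' (x * y) ∈ L :=
        Subgroup.subset_closure (Or.inl (Or.inl (hB' _ _ (Or.inl (by simpa using hy)))))
      simpa using L.mul_mem ih this
    | mul_inv_cancel x _ y hy ih =>
      have : (F' x)⁻¹ * F' (x * y⁻¹) ∈ L :=
        Subgroup.subset_closure (Or.inl (Or.inl (hB' _ _ (Or.inr (by simpa using hy)))))
      simpa using L.mul_mem ih this
  rw [eq_top_iff]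
  intro x _
  have h1 : x⁻¹ * F' (F x) ∈ L := Subgroup.subset_closure (Or.inl (Or.inr (hE' x)))
  simpa using L.mul_mem (key (F x)) (L.inv_mem h1)

theorem qa_orbit {X : Type w} [PseudoMetricSpace X] {a : H → X → X} (h : IsGeomQuasiAction a) :
    ∃ (x : X) (C : ℝ), (∀ y, ∃ g, dist y (a g x) ≤ C) ∧
      (∀ A : Set H, A.Finite → ∃ r : ℝ, ∀ g h, g⁻¹ * h ∈ A → dist (a g x) (a h x) ≤ r) ∧
      ∀ r : ℝ, ∃ A : Set H, A.Finite ∧ ∀ g h, dist (a g x) (a h x) ≤ r → g⁻¹ * h ∈ A := by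
  obtain ⟨K, C, hK, hq, hm, x, hp, hc⟩ := h
  have hK0 : 0 < K := by linarith
  refine ⟨x, C, hc, fun A hA => ?_, fun r => ⟨_, hp (K * (r + 2 * C)), fun g h hgh => ?_⟩⟩
  · obtain ⟨r, hr⟩ := (hA.image fun k => dist x (a k x)).bddAbove
    refine ⟨K * r + 2 * C, fun g h hgh => ?_⟩
    have h1 := hm g (g⁻¹ * h) x
    rw [mul_inv_cancel_left] at h1
    have h2 := ((hq g).1 x trivial (a (g⁻¹ * h) x) trivial).2
    have h3 : dist x (a (g⁻¹ * h) x) ≤ r := hr ⟨_, hgh, rfl⟩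
    have h4 := dist_triangle_right (a g x) (a h x) (a g (a (g⁻¹ * h) x))
    have h5 := mul_le_mul_of_nonneg_left h3 hK0.le
    linarith
  · have h1 := hm g (g⁻¹ * h) x
    rw [mul_inv_cancel_left] at h1
    have h2 := ((hq g).1 x trivial (a (g⁻¹ * h) x) trivial).1
    have h4 := dist_triangle (a g x) (a h x) (a g (a (g⁻¹ * h) x))
    have h5 : K⁻¹ * dist x (a (g⁻¹ * h) x) ≤ r + 2 * C := by linarith
    have := mul_le_mul_of_nonneg_left h5 hK0.le
    rwa [← mul_assoc, mul_inv_cancel₀ hK0.ne', one_mul] at this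

theorem coarseEquiv_of_qa {X : Type w} [PseudoMetricSpace X] {a : H → X → X} {b : G → X → X}
    (ha : IsGeomQuasiAction a) (hb : IsGeomQuasiAction b) : CoarseEquiv H G := by
  obtain ⟨x, C, a1, a2, a3⟩ := qa_orbit ha
  obtain ⟨y, D, b1, b2, b3⟩ := qa_orbit hb
  choose F hF using fun h : H => b1 (a h x)
  refine coarseEquiv_of F (fun A hA => ?_) (fun B hB => ?_) ?_
  · obtain ⟨r, hr⟩ := a2 A hA
    obtain ⟨B, hB, hB'⟩ := b3 (r + 2 * D)
    refine ⟨B, hB, fun g h hgh => hB' _ _ ?_⟩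
    have h1 := dist_triangle4 (b (F g) y) (a g x) (a h x) (b (F h) y)
    have h2 := hF g
    rw [dist_comm] at h2
    linarith [hF h, hr g h hgh]
  · obtain ⟨r, hr⟩ := b2 B hB
    obtain ⟨A, hA, hA'⟩ := a3 (r + 2 * D)
    refine ⟨A, hA, fun g h hgh => hA' _ _ ?_⟩
    have h1 := dist_triangle4 (a g x) (b (F g) y) (b (F h) y) (a h x)
    have h2 := hF h
    rw [dist_comm] at h2
    linarith [hF g, hr _ _ hgh]
  · obtain ⟨E, hE, hE'⟩ := b3 (C + D)
    refine ⟨E, hE, fun g => ?_⟩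
    obtain ⟨h, hh⟩ := a1 (b g y)
    refine ⟨h, hE' _ _ ?_⟩
    linarith [dist_triangle (b g y) (a h x) (b (F h) y), hF h]

theorem exists_compact_cover (H : Type u) [Group H] {Ω : Type w} [TopologicalSpace Ω]
    [WeaklyLocallyCompactSpace Ω] [MulAction H Ω] [ContinuousConstSMul H Ω]
    [CompactSpace (MulAction.orbitRel.Quotient H Ω)] :
    ∃ K : Set Ω, IsCompact K ∧ ∀ ω : Ω, ∃ h : H, h • ω ∈ K := by
  choose N hN hN' using fun ω : Ω => exists_compact_mem_nhds ω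
  let π : Ω → MulAction.orbitRel.Quotient H Ω := Quotient.mk (MulAction.orbitRel H Ω)
  have hπ : IsOpenMap π := isOpenMap_quotient_mk'_mul
  obtain ⟨t, ht⟩ := isCompact_univ.elim_finite_subcover (fun ω => π '' interior (N ω))
    (fun ω => hπ _ isOpen_interior) (by
      intro q _
      obtain ⟨ω, rfl⟩ := Quotient.mk_surjective q
      exact mem_iUnion.2 ⟨ω, ω, mem_interior_iff_mem_nhds.2 (hN' ω), rfl⟩)
  refine ⟨⋃ ω ∈ t, N ω, t.isCompact_biUnion fun ω _ => hN ω, fun ω => ?_⟩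
  obtain ⟨z, hz, y, hy, hyz⟩ := mem_iUnion₂.1 (ht (mem_univ (π ω)))
  obtain ⟨h, hh⟩ : y ∈ MulAction.orbit H ω := MulAction.orbitRel_apply.1 (Quotient.exact hyz)
  exact ⟨h, mem_iUnion₂.2 ⟨z, hz, by simpa [hh] using interior_subset hy⟩⟩

theorem coarseEquiv_of_coupling {Ω : Type w} [MulAction H Ω] [MulAction G Ω]
    [SMulCommClass H G Ω] (ω : Ω) (K : Set Ω)
    (c1 : ∀ (h : H), ∃ g : G, g • h • ω ∈ K) (c2 : ∀ (g : G), ∃ h : H, h • g • ω ∈ K)
    (p1 : ∀ a : H, {g : G | ∃ p ∈ K, ∃ q ∈ K, g • p = a • q}.Finite)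
    (p2 : ∀ b : G, {h : H | ∃ p ∈ K, ∃ q ∈ K, h • p = b • q}.Finite) : CoarseEquiv H G := by
  choose F₀ hF using fun h : H => c1 h⁻¹
  have key : ∀ x y : H, ((F₀ x)⁻¹⁻¹ * (F₀ y)⁻¹)⁻¹ • F₀ x • x⁻¹ • ω =
      (x⁻¹ * y) • F₀ y • y⁻¹ • ω := by
    intro x y
    rw [smul_comm (x⁻¹ * y) (F₀ y), smul_smul, smul_smul]
    simp
  refine coarseEquiv_of (fun h => (F₀ h)⁻¹) (fun A hA => ?_) (fun B hB => ?_) ?_
  · refine ⟨_, (hA.biUnion fun a _ => p1 a).inv, fun x y hxy => ?_⟩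
    exact mem_iUnion₂.2 ⟨_, hxy, _, hF x, _, hF y, key x y⟩
  · refine ⟨_, hB.biUnion fun b _ => p2 b⁻¹, fun x y hxy => ?_⟩
    exact mem_iUnion₂.2 ⟨_, hxy, _, hF y, _, hF x, (key x y).symm⟩
  · refine ⟨_, p1 1, fun g => ?_⟩
    obtain ⟨h, hh⟩ := c2 g⁻¹
    refine ⟨h⁻¹, _, hF h⁻¹, _, hh, ?_⟩
    rw [one_smul, smul_comm h g⁻¹, smul_smul]
    simp

theorem coarseEquiv_of_top {Ω : Type w} [TopologicalSpace Ω] [WeaklyLocallyCompactSpace Ω]
    [Nonempty Ω] [MulAction H Ω] [MulAction G Ω] [SMulCommClass H G Ω]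
    [ContinuousConstSMul H Ω] [ContinuousConstSMul G Ω]
    [ProperlyDiscontinuousSMul H Ω] [ProperlyDiscontinuousSMul G Ω]
    [CompactSpace (MulAction.orbitRel.Quotient H Ω)]
    [CompactSpace (MulAction.orbitRel.Quotient G Ω)] : CoarseEquiv H G := by
  obtain ⟨K, hK, hK'⟩ := exists_compact_cover H (Ω := Ω)
  obtain ⟨L, hL, hL'⟩ := exists_compact_cover G (Ω := Ω)
  have hc := hK.union hL
  refine coarseEquiv_of_coupling (Classical.arbitrary Ω) (K ∪ L)
    (fun h => (hL' _).imp fun _ => Or.inr) (fun g => (hK' _).imp fun _ => Or.inl)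
    (fun a => ?_) (fun b => ?_)
  · refine (ProperlyDiscontinuousSMul.finite_disjoint_inter_image (Γ := G) hc
      (hc.image (continuous_const_smul a))).subset ?_
    rintro g ⟨p, hp, q, hq, h⟩
    exact ⟨g • p, ⟨p, hp, rfl⟩, q, hq, h.symm⟩
  · refine (ProperlyDiscontinuousSMul.finite_disjoint_inter_image (Γ := H) hc
      (hc.image (continuous_const_smul b))).subset ?_
    rintro g ⟨p, hp, q, hq, h⟩
    exact ⟨g • p, ⟨p, hp, rfl⟩, q, hq, h.symm⟩

end coarse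

end Vale.Agent.N188G
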