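import Mathlib

/-!
P188: Cayley graph distances, quasi-isometries on subsets, subnormal series with cyclic
quotients, quasi-actions.
-/

namespace Vale.Agent.N188G

open Set

/-- the pairs `(A, B)` of subgroups with `A` normal in `B` and `B / A` cyclic -/
def cyclicStep (G : Type*) [Group G] : SetRel (Subgroup G) (Subgroup G) :=
  {p | p.1 ≤ p.2 ∧ ∃ _ : (p.1.subgroupOf p.2).Normal, IsCyclic (p.2 ⧸ p.1.subgroupOf p.2)}

/-- `G` is virtually polycyclic: a subnormal series with cyclic quotients leads from the trivial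
subgroup to a subgroup of finite index. -/
def VirtPoly (G : Type*) [Group G] : Prop :=
  ∃ s : RelSeries (cyclicStep G), s.head = ⊥ ∧ s.last.FiniteIndex

/-- The same, with the length of the series and the index at most `N`. -/
def VirtPolyLE (G : Type*) [Group G] (N : ℕ) : Prop :=
  ∃ s : RelSeries (cyclicStep G), s.head = ⊥ ∧ s.last.FiniteIndex ∧ s.length ≤ N ∧
    s.last.index ≤ N

/-- the word metric: the distance in the Cayley graph -/
noncomputable def wd {G : Type*} [Group G] (S : Finset G) (x y : G) : ℝ :=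
  (SimpleGraph.mulCayley (S : Set G)).dist x y

/-- `F` satisfies the `(K, C)`-quasi-isometry inequalities on `A`, and every point of `B` lies
within `C` of `F(A)`. -/
def QIOn {X Y : Type*} (dX : X → X → ℝ) (dY : Y → Y → ℝ) (K C : ℝ) (F : X → Y) (A : Set X)
    (B : Set Y) : Prop :=
  (∀ x ∈ A, ∀ x' ∈ A, K⁻¹ * dX x x' - C ≤ dY (F x) (F x') ∧ dY (F x) (F x') ≤ K * dX x x' + C) ∧
    ∀ y ∈ B, ∃ x ∈ A, dY y (F x) ≤ C

/-- `a` is a proper cobounded quasi-action of `H` on the space `X`. -/
def IsGeomQuasiAction {H X : Type*} [Group H] [PseudoMetricSpace X] (a : H → X → X) : Prop :=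
  ∃ K C : ℝ, 1 ≤ K ∧ (∀ h, QIOn dist dist K C (a h) univ univ) ∧
    (∀ g h x, dist (a (g * h) x) (a g (a h x)) ≤ C) ∧
    ∃ x, (∀ r : ℝ, {h | dist x (a h x) ≤ r}.Finite) ∧ ∀ y, ∃ h, dist y (a h x) ≤ C

end Vale.Agent.N188G
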