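import Vale.Agent.N188G.Basic
import Vale.Agent.P188.H187.Final

/-!
P188: rigidity of virtually polycyclic groups under coarse equivalence.
-/

universe u v

namespace Vale.Agent.N188G

open Set Vale.Agent.P188

theorem fg_of_virtPoly {G : Type v} [Group G] (h : IsVirtuallyPolycyclic G) : Group.FG G := by
  obtain ⟨P, hP, h⟩ := isVirtuallyPolycyclic_iff.1 h
  exact fg_of_coarseEquiv (coarseEquiv_of_finiteIndex P hP) ((Group.fg_iff_subgroup_fg P).2 h.fg)

theorem core : H187.Core :=
  H789.core_of_outA (H789.outA_final H187.flatgAll H789.inAll) QA7.endA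

theorem rigidity_coarse {H : Type u} {G : Type v} [Group H] [Group G] (c2 : CoarseEquiv H G)
    (hG₀ : VirtPoly G) : VirtPoly H := by
  have hG := virtPoly_iff.1 hG₀
  rw [virtPoly_iff]
  have hGf : Group.FG G := fg_of_virtPoly hG
  have hH : Group.FG H := fg_of_coarseEquiv c2 hGf
  have : Countable H := H187.countable_of_fg hH
  have : Countable G := H187.countable_of_fg hGf
  have : Small.{0} H := Countable.toSmall H
  have : Small.{0} G := Countable.toSmall G
  let eH : H ≃* Shrink.{0} H := (Shrink.mulEquiv.{0, u} (α := H)).symm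
  let eG : G ≃* Shrink.{0} G := (Shrink.mulEquiv.{0, v} (α := G)).symm
  have hG' : IsVirtuallyPolycyclic (Shrink.{0} G) :=
    H187.isVirtuallyPolycyclic_of_mulEquiv eG hG
  obtain ⟨Γ, _, ι, hι, hfi, k, η, h1, h2, h3, h4, h5, h6, h7, h8⟩ := H754.virtPoly_genWeight hG'
  have hZ : H187.Z0 Γ k η := ⟨h1, h2, h3, h4, h5, h6, h7, h8⟩
  have c1 : CoarseEquiv (Shrink.{0} H) H := H187.coarseEquiv_of_mulEquiv eH.symm
  have c3 : CoarseEquiv G (Shrink.{0} G) := H187.coarseEquiv_of_mulEquiv eG
  have c4 : CoarseEquiv (Shrink.{0} G) ι.range := coarseEquiv_of_finiteIndex _ hfi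
  have c5 : CoarseEquiv ι.range Γ :=
    H187.coarseEquiv_of_mulEquiv (MonoidHom.ofInjective hι).symm
  have hHf : Group.FG (Shrink.{0} H) :=
    Group.fg_of_surjective (f := eH.toMonoidHom) eH.surjective
  exact H187.isVirtuallyPolycyclic_of_mulEquiv eH.symm
    (core Γ k η hZ (Shrink.{0} H) (c1.trans (c2.trans (c3.trans (c4.trans c5)))))

theorem rigidity_qi {H : Type u} {G : Type v} [Group H] [Group G] (S : Finset H) (T : Finset G)
    (hS : Subgroup.closure (S : Set H) = ⊤) (hT : Subgroup.closure (T : Set G) = ⊤) (K C : ℝ)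
    (hK : 1 ≤ K) (hC : 0 ≤ C) (F : H → G) (h : QIOn (wd S) (wd T) K C F univ univ)
    (hG : VirtPoly G) : VirtPoly H := by
  refine rigidity_coarse (QuasiIsometric.coarseEquiv ⟨S, T, hS, hT, K, C, hK, hC, F, ?_, ?_⟩) hG
  · intro x x'
    simpa only [wd_eq hS, wd_eq hT] using h.1 x trivial x' trivial
  · intro y
    obtain ⟨x, -, hx⟩ := h.2 y trivial
    exact ⟨x, by simpa only [wd_eq hT] using hx⟩

end Vale.Agent.N188G
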