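import Vale.Agent.N188G.Rel
import Vale.Agent.N188G.Rig

/-!
P188: the finitary form of quasi-isometric rigidity.
-/

universe u v w

namespace Vale.Agent.N188G

open Set Filter Vale.Agent.P188

theorem ultra_exists {α β : Type*} {𝒰 : Ultrafilter α} {A : Set β} (hA : A.Finite)
    {p : α → β → Prop} (h : ∀ᶠ n in (𝒰 : Filter α), ∃ a ∈ A, p n a) :
    ∃ a ∈ A, ∀ᶠ n in (𝒰 : Filter α), p n a :=
  (Ultrafilter.eventually_exists_mem_iff hA).1 h

/-- the limit of a sequence of marked groups -/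
theorem limit_virtPoly {E : Type w} {G : Type v} [Group E] [Group G] (hE : Group.FG E)
    (hG : VirtPoly G) (𝒰 : Ultrafilter ℕ) (H : ℕ → Type u) [∀ n, Group (H n)]
    (φ : ∀ n, E →* H n) (hφ : ∀ n, Function.Surjective (φ n)) (F : ∀ n, H n → G)
    (h1 : ∀ n, F n 1 = 1)
    (ha : ∀ A : Set E, A.Finite → ∃ B : Set G, B.Finite ∧ ∀ x y, x⁻¹ * y ∈ A →
      ∀ᶠ n in (𝒰 : Filter ℕ), (F n (φ n x))⁻¹ * F n (φ n y) ∈ B)
    (hb : ∀ B : Set G, B.Finite → ∃ A : Set E, A.Finite ∧ ∀ x y, ∀ᶠ n in (𝒰 : Filter ℕ),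
      (F n (φ n x))⁻¹ * F n (φ n y) ∈ B → ∃ a ∈ A, φ n a = φ n (x⁻¹ * y))
    (hc : ∃ D : Set G, D.Finite ∧ ∀ g : G, ∃ A : Set E, A.Finite ∧
      ∀ᶠ n in (𝒰 : Filter ℕ), ∃ a ∈ A, g⁻¹ * F n (φ n a) ∈ D) :
    ∃ N, ∀ᶠ n in (𝒰 : Filter ℕ), VirtPolyLE (H n) N := by
  let M : Subgroup E :=
    { carrier := {e | ∀ᶠ n in (𝒰 : Filter ℕ), φ n e = 1}
      one_mem' := Eventually.of_forall fun n => map_one _
      mul_mem' := fun hx hy => (hx.and hy).mono fun n h => by rw [map_mul, h.1, h.2, one_mul]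
      inv_mem' := fun hx => hx.mono fun n h => by rw [map_inv, h, inv_one] }
  have hM : M.Normal := ⟨fun x hx g => hx.mono fun n h => by simp [h]⟩
  have hmk : ∀ x y : E, (x : E ⧸ M) = y ↔ ∀ᶠ n in (𝒰 : Filter ℕ), φ n x = φ n y := by
    intro x y
    rw [QuotientGroup.eq]
    show (∀ᶠ n in (𝒰 : Filter ℕ), φ n (x⁻¹ * y) = 1) ↔ _
    simp only [map_mul, map_inv, inv_mul_eq_one]
  have hL : ∀ e : E, ∃ g : G, ∀ᶠ n in (𝒰 : Filter ℕ), F n (φ n e) = g := by
    intro e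
    obtain ⟨B, hB, hB'⟩ := ha {e} (finite_singleton e)
    obtain ⟨g, -, hg⟩ := ultra_exists (p := fun n g => F n (φ n e) = g) hB
      ((hB' 1 e (by simp)).mono fun n h => ⟨_, by simpa [h1] using h, rfl⟩)
    exact ⟨g, hg⟩
  choose L hL using hL
  have hL' : ∀ x y : E, (x : E ⧸ M) = y → L x = L y := by
    intro x y h
    obtain ⟨n, ⟨k1, k2⟩, k3⟩ := (((hL x).and (hL y)).and ((hmk x y).1 h)).exists
    rw [← k1, ← k2, k3]
  have hc : CoarseEquiv (E ⧸ M) G := by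
    refine coarseEquiv_of (fun q => L q.out) (fun A hA => ?_) (fun B hB => ?_) ?_
    · obtain ⟨B, hB, hB'⟩ := ha _ (hA.image Quotient.out)
      refine ⟨B, hB, fun x y hxy => ?_⟩
      have e : L y.out = L (x.out * (x⁻¹ * y).out) := hL' _ _ (by simp)
      obtain ⟨n, ⟨k1, k2⟩, k3⟩ := (((hL x.out).and (hL (x.out * (x⁻¹ * y).out))).and
        (hB' x.out (x.out * (x⁻¹ * y).out) ⟨_, hxy, by simp⟩)).exists
      rwa [k1, k2, ← e] at k3
    · obtain ⟨A, hA, hA'⟩ := hb B hB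
      refine ⟨_, hA.image QuotientGroup.mk, fun x y hxy => ?_⟩
      obtain ⟨a, k1, k2⟩ := ultra_exists (p := fun n a => φ n a = φ n (x.out⁻¹ * y.out)) hA
        ((((hL x.out).and (hL y.out)).and (hA' x.out y.out)).mono fun n h =>
          h.2 (by rw [h.1.1, h.1.2]; exact hxy))
      exact ⟨a, k1, by simpa using (hmk _ _).2 k2⟩
    · obtain ⟨D, hD, hD'⟩ := hc
      refine ⟨D, hD, fun g => ?_⟩
      obtain ⟨A, hA, hA'⟩ := hD' g
      obtain ⟨a, -, k2⟩ := ultra_exists (p := fun n a => g⁻¹ * F n (φ n a) ∈ D) hA hA'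
      obtain ⟨n, k3, k4⟩ := ((hL a).and k2).exists
      refine ⟨a, ?_⟩
      rwa [hL' _ a (by simp), ← k3]
  obtain ⟨N, hN⟩ := (rigidity_coarse hc hG).exists_le
  obtain ⟨W, w1, w2, w3⟩ := hN.rel.{u} hE (QuotientGroup.mk' M) (QuotientGroup.mk'_surjective M)
  have : ∀ᶠ n in (𝒰 : Filter ℕ), ∀ w ∈ W, φ n w = 1 :=
    (eventually_all_finite w1).2 fun w hw => (QuotientGroup.eq_one_iff w).1 (w2 w hw)
  exact ⟨N, this.mono fun n hn => w3 _ (φ n) (hφ n) hn⟩

section marking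

variable {H : Type u} [Group H]

theorem list_drop_one {S : Set H} : ∀ l : List H, (∀ a ∈ l, (a ∈ S ∨ a⁻¹ ∈ S) ∨ a = 1) →
    ∃ l' : List H, l'.length ≤ l.length ∧ (∀ a ∈ l', a ∈ S ∨ a⁻¹ ∈ S) ∧ l'.prod = l.prod
  | [], _ => ⟨[], le_rfl, by simp, rfl⟩
  | a :: l, h => by
    obtain ⟨l', h1, h2, h3⟩ := list_drop_one l fun b hb => h b (List.mem_cons_of_mem _ hb)
    rcases h a List.mem_cons_self with ha | rfl
    · refine ⟨a :: l', by simpa using h1, fun b hb => ?_, by simp [h3]⟩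
      rcases List.mem_cons.1 hb with rfl | hb
      exacts [ha, h2 b hb]
    · exact ⟨l', by simp; omega, h2, by simp [h3]⟩

theorem list_lift {E : Type w} [Group E] (φ : E →* H) {X : Set E} {S : Set H} (hS : S ⊆ φ '' X) :
    ∀ l : List H, (∀ a ∈ l, a ∈ S ∨ a⁻¹ ∈ S) →
    ∃ l' : List E, l'.length = l.length ∧ (∀ a ∈ l', a ∈ X ∨ a⁻¹ ∈ X) ∧ φ l'.prod = l.prod
  | [], _ => ⟨[], rfl, by simp, by simp⟩
  | a :: l, h => by
    obtain ⟨l', h1, h2, h3⟩ := list_lift φ hS l fun b hb => h b (List.mem_cons_of_mem _ hb)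
    have : ∃ x : E, (x ∈ X ∨ x⁻¹ ∈ X) ∧ φ x = a := by
      rcases h a List.mem_cons_self with ha | ha
      · obtain ⟨x, hx, hx'⟩ := hS ha
        exact ⟨x, Or.inl hx, hx'⟩
      · obtain ⟨x, hx, hx'⟩ := hS ha
        exact ⟨x⁻¹, Or.inr (by simpa using hx), by simp [hx']⟩
    obtain ⟨x, hx, rfl⟩ := this
    refine ⟨x :: l', by simp [h1], fun b hb => ?_, by simp [h3]⟩
    rcases List.mem_cons.1 hb with rfl | hb
    exacts [hx, h2 b hb]

theorem exists_marking {d : ℕ} (S : Finset H) (hS : Subgroup.closure (S : Set H) = ⊤)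
    (hd : S.card ≤ d) : ∃ φ : FreeGroup (Fin d) →* H,
      (∀ x y, wordDist (S : Set H) (φ x) (φ y) ≤ wordDist (range FreeGroup.of) x y) ∧
      ∀ x y : H, ∃ a, wordDist (range FreeGroup.of) 1 a ≤ wordDist (S : Set H) x y ∧
        φ a = x⁻¹ * y := by
  classical
  let σ : Fin d → H := fun i => if h : i.1 < S.card then (S.equivFin.symm ⟨i, h⟩ : H) else 1
  have h1 : ∀ i, σ i ∈ S ∨ σ i = 1 := fun i => by
    by_cases h : i.1 < S.card
    · exact Or.inl (by simp [σ, h])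
    · exact Or.inr (by simp [σ, h])
  have h2 : (S : Set H) ⊆ FreeGroup.lift σ '' range FreeGroup.of := by
    intro s hs
    refine ⟨_, ⟨⟨S.equivFin ⟨s, hs⟩, (S.equivFin ⟨s, hs⟩).2.trans_le hd⟩, rfl⟩, ?_⟩
    simp [σ]
  refine ⟨FreeGroup.lift σ, fun x y => ?_, fun x y => ?_⟩
  · obtain ⟨l, k1, k2, k3⟩ := wordDist_list (FreeGroup.closure_range_of (Fin d)) x y
    obtain ⟨l', m1, m2, m3⟩ := list_drop_one (S := (S : Set H)) (l.map (FreeGroup.lift σ)) (by
      intro a ha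
      obtain ⟨b, hb, rfl⟩ := List.mem_map.1 ha
      rcases k2 b hb with ⟨i, rfl⟩ | ⟨i, hi⟩
      · rcases h1 i with h | h
        · exact Or.inl (Or.inl (by simpa using h))
        · exact Or.inr (by simpa using h)
      · rw [← map_inv, ← inv_eq_one, ← map_inv, ← hi]
        rcases h1 i with h | h
        · exact Or.inl (Or.inr (by simpa using h))
        · exact Or.inr (by simpa using h))
    have m4 : wordDist (S : Set H) (FreeGroup.lift σ x) (FreeGroup.lift σ y) ≤ l'.length :=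
      Nat.sInf_le ⟨l', rfl, m2, by rw [m3, ← map_list_prod, k3, map_mul, map_inv]⟩
    exact m4.trans (by simpa [k1] using m1)
  · obtain ⟨l, k1, k2, k3⟩ := wordDist_list hS x y
    obtain ⟨l', m1, m2, m3⟩ := list_lift _ h2 l k2
    exact ⟨l'.prod, Nat.sInf_le ⟨l', m1.trans k1, m2, by simp⟩, m3.trans k3⟩

end marking

theorem finitary {G : Type v} [Group G] (T : Finset G) (hT : Subgroup.closure (T : Set G) = ⊤)
    (hG : VirtPoly G) (d : ℕ) (K C : ℝ) (hK : 1 ≤ K) :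
    ∃ R N : ℕ, ∀ (H : Type u) [Group H] (S : Finset H), Subgroup.closure (S : Set H) = ⊤ →
      S.card ≤ d → ∀ (F : H → G) (A : Set H), {x | wd S 1 x ≤ R} ⊆ A →
        QIOn (wd S) (wd T) K C F A {y | wd T (F 1) y ≤ R} → VirtPolyLE H N := by
  by_contra hcon
  push Not at hcon
  choose H inst S hS hd F A hA hq hN using fun n => hcon n n
  choose φ p1 p2 using fun n => exists_marking (S n) (hS n) (hd n)
  have hK0 : 0 < K := by linarith
  have hX := FreeGroup.closure_range_of (Fin d)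
  have hXf : (range (FreeGroup.of : Fin d → FreeGroup (Fin d))).Finite := finite_range _
  let 𝒰 := hyperfilter ℕ
  have hev : ∀ m : ℕ, ∀ᶠ n in (𝒰 : Filter ℕ), m ≤ n := fun m =>
    hyperfilter_le_cofinite (Nat.cofinite_eq_atTop ▸ eventually_ge_atTop m)
  have hmem : ∀ x, ∀ᶠ n in (𝒰 : Filter ℕ), φ n x ∈ A n := fun x =>
    (hev (wordDist (range FreeGroup.of) 1 x)).mono fun n hn => hA n (by
      have := (p1 n 1 x).trans hn
      rw [map_one] at this
      show wd (S n) 1 (φ n x) ≤ n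
      rw [wd_eq (hS n)]
      exact_mod_cast this)
  have low : ∀ m : ℕ, ∃ B : Set (FreeGroup (Fin d)), B.Finite ∧ ∀ n, ∀ x ∈ A n, ∀ y ∈ A n,
      wordDist (T : Set G) (F n x) (F n y) ≤ m → ∃ a ∈ B, φ n a = x⁻¹ * y := by
    intro m
    obtain ⟨B, hB, hB'⟩ := finite_ball hX hXf ⌈K * (m + C)⌉₊
    refine ⟨B, hB, fun n x hx y hy h => ?_⟩
    obtain ⟨a, k1, k2⟩ := p2 n x y
    suffices h4 : wordDist (S n : Set (H n)) x y ≤ ⌈K * (m + C)⌉₊ from
      ⟨a, by simpa using hB' 1 a (k1.trans h4), k2⟩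
    have h1 := ((hq n).1 x hx y hy).1
    rw [wd_eq (hS n), wd_eq hT] at h1
    have h0 : (wordDist (T : Set G) (F n x) (F n y) : ℝ) ≤ m := by exact_mod_cast h
    have h2 : K⁻¹ * (wordDist (S n : Set (H n)) x y : ℝ) ≤ m + C := by linarith
    have h3 := mul_le_mul_of_nonneg_left h2 hK0.le
    rw [← mul_assoc, mul_inv_cancel₀ hK0.ne', one_mul] at h3
    exact_mod_cast h3.trans (Nat.le_ceil _)
  obtain ⟨N, h⟩ := limit_virtPoly (Group.fg_iff.2 ⟨_, hX, hXf⟩) hG 𝒰 H φ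
    (fun n y => (p2 n 1 y).imp fun a h => by simpa using h.2)
    (fun n x => (F n 1)⁻¹ * F n x) (fun n => by simp) (fun B hB => by
      obtain ⟨r, hr⟩ := bounded_wordDist (range FreeGroup.of) hB
      obtain ⟨D, hD, hD'⟩ := finite_ball hT T.finite_toSet ⌈K * r + C⌉₊
      refine ⟨D, hD, fun x y hxy => ((hmem x).and (hmem y)).mono fun n hn => ?_⟩
      have h1 := ((hq n).1 _ hn.1 _ hn.2).2
      rw [wd_eq (hS n), wd_eq hT] at h1
      have h2 : (wordDist (S n : Set (H n)) (φ n x) (φ n y) : ℝ) ≤ r := by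
        exact_mod_cast (p1 n x y).trans (hr x y hxy)
      have h3 := mul_le_mul_of_nonneg_left h2 hK0.le
      have h4 : wordDist (T : Set G) (F n (φ n x)) (F n (φ n y)) ≤ ⌈K * r + C⌉₊ := by
        exact_mod_cast (h1.trans (by linarith)).trans (Nat.le_ceil (K * r + C))
      simpa [mul_assoc] using hD' _ _ h4) (fun B hB => by
      obtain ⟨m, hm⟩ := bounded_wordDist (T : Set G) hB
      obtain ⟨D, hD, hD'⟩ := low m
      refine ⟨D, hD, fun x y => ((hmem x).and (hmem y)).mono fun n hn h => ?_⟩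
      simpa using hD' n _ hn.1 _ hn.2 (hm _ _ (by simpa [mul_assoc] using h))) (by
      obtain ⟨D, hD, hD'⟩ := finite_ball hT T.finite_toSet ⌊C⌋₊
      refine ⟨D, hD, fun g => ?_⟩
      obtain ⟨m, hm⟩ := bounded_wordDist (T : Set G) (hD.image fun z => g * z)
      obtain ⟨B, hB, hB'⟩ := low m
      refine ⟨B, hB, ((hmem 1).and (hev (wordDist (T : Set G) 1 g))).mono fun n hn => ?_⟩
      obtain ⟨x, hx, hx'⟩ := (hq n).2 (F n 1 * g) (by
        show wd T (F n 1) (F n 1 * g) ≤ n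
        rw [wd_eq hT]
        have : wordDist (T : Set G) (F n 1) (F n 1 * g) = wordDist (T : Set G) 1 g := by
          simp [wordDist]
        rw [this]
        exact_mod_cast hn.2)
      rw [wd_eq hT] at hx'
      have h1 := hD' _ _ (Nat.le_floor hx')
      obtain ⟨a, k1, k2⟩ := hB' n 1 (by simpa using hn.1) x hx
        (hm _ _ ⟨_, h1, by simp [mul_assoc]⟩)
      exact ⟨a, k1, by simpa [k2, mul_assoc] using h1⟩)
  obtain ⟨n, k1, k2⟩ := (h.and (hev N)).exists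
  exact hN n (k1.mono k2)

end Vale.Agent.N188G
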