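import Vale.Agent.N188G.Basic

/-!
P188: a virtually polycyclic quotient of a finitely generated group is cut out, up to passing to
further quotients, by finitely many relations.
-/

universe u v w

namespace Vale.Agent.N188G

open Set Vale.Agent.P188

theorem cycStep_sup {G : Type u} [Group G] {U : Subgroup G} {t : G}
    (h1 : ∀ n ∈ U, t * n * t⁻¹ ∈ U) (h2 : ∀ n ∈ U, t⁻¹ * n * t ∈ U) :
    CycStep U (U ⊔ Subgroup.zpowers t) t := by
  refine ⟨le_sup_left, Subgroup.mem_sup_right (Subgroup.mem_zpowers t), h1, h2, fun g hg => ?_⟩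
  have : U ⊔ Subgroup.zpowers t ≤ adjoinCyc U t h1 h2 := by
    refine sup_le (fun x hx => ⟨0, by simpa using hx⟩) ?_
    rintro _ ⟨k, rfl⟩
    exact ⟨k, by simp⟩
  exact this hg

theorem cycStep_eq {G : Type u} [Group G] {U M : Subgroup G} {t : G} (h : CycStep U M t) :
    U ⊔ Subgroup.zpowers t = M := by
  refine le_antisymm (sup_le h.le ((Subgroup.zpowers_le).2 h.mem)) fun g hg => ?_
  obtain ⟨k, hk⟩ := h.dec g hg
  have e : g = t ^ k * ((t ^ k)⁻¹ * g) := by group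
  rw [e]
  exact Subgroup.mul_mem _ (Subgroup.mem_sup_right ⟨k, rfl⟩) (Subgroup.mem_sup_left hk)

variable {E : Type v} {Q : Type w} [Group E] [Group Q]

theorem conj_rel (π : E →* Q) {M : Subgroup E} (hM : M.FG) (τ : E)
    (h : ∀ n ∈ M.map π, π τ * n * (π τ)⁻¹ ∈ M.map π) :
    ∃ W : Set E, W.Finite ∧ (∀ w ∈ W, π w = 1) ∧ ∀ (H : Type u) [Group H] (φ : E →* H),
      (∀ w ∈ W, φ w = 1) → ∀ n ∈ M.map φ, φ τ * n * (φ τ)⁻¹ ∈ M.map φ := by
  obtain ⟨Y, rfl⟩ := hM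
  have h' : ∀ y : Y, ∃ a ∈ Subgroup.closure (Y : Set E), π a = π τ * π y * (π τ)⁻¹ := fun y =>
    h _ ⟨y, Subgroup.subset_closure y.2, rfl⟩
  choose a ha ha' using h'
  refine ⟨range fun y : Y => (a y)⁻¹ * (τ * y * τ⁻¹), finite_range _, ?_, ?_⟩
  · rintro _ ⟨y, rfl⟩
    simp [ha', mul_assoc]
  · rintro H _ φ hφ _ ⟨n, hn, rfl⟩
    induction hn using Subgroup.closure_induction with
    | mem x hx =>
      refine ⟨a ⟨x, hx⟩, ha _, ?_⟩
      have := hφ _ ⟨⟨x, hx⟩, rfl⟩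
      simpa [inv_mul_eq_one] using this
    | one => simp
    | mul x y _ _ hx hy =>
      have e : φ τ * φ (x * y) * (φ τ)⁻¹ = (φ τ * φ x * (φ τ)⁻¹) * (φ τ * φ y * (φ τ)⁻¹) := by
        rw [map_mul]; group
      rw [e]
      exact Subgroup.mul_mem _ hx hy
    | inv x _ hx =>
      have e : φ τ * φ x⁻¹ * (φ τ)⁻¹ = (φ τ * φ x * (φ τ)⁻¹)⁻¹ := by
        rw [map_inv]; group
      rw [e]
      exact Subgroup.inv_mem _ hx

theorem series_rel (π : E →* Q) (hπ : Function.Surjective π) (s : RelSeries (cyclicStep Q))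
    (h0 : s.head = ⊥) (i : Fin (s.length + 1)) :
    ∃ M : Subgroup E, M.FG ∧ M.map π = s i ∧ ∃ W : Set E, W.Finite ∧ (∀ w ∈ W, π w = 1) ∧
      ∀ (H : Type u) [Group H] (φ : E →* H), (∀ w ∈ W, φ w = 1) →
        ∃ s' : RelSeries (cyclicStep H), s'.head = ⊥ ∧ s'.last = M.map φ ∧ s'.length = i := by
  induction i using Fin.induction with
  | zero =>
    refine ⟨⊥, ⟨∅, by simp⟩, by rw [Subgroup.map_bot]; exact h0.symm, ∅, finite_empty, by simp,
      fun H _ φ _ => ⟨RelSeries.singleton _ ⊥, rfl, by simp, rfl⟩⟩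
  | succ i ih =>
    obtain ⟨M, hM, hMs, W, hW, hW', hs⟩ := ih
    obtain ⟨t, ht⟩ := cycStep_of_cycQ (s.step i)
    obtain ⟨τ, rfl⟩ := hπ t
    obtain ⟨W₁, a1, a2, a3⟩ := conj_rel.{u} π hM τ (by rw [hMs]; exact ht.conj)
    obtain ⟨W₂, b1, b2, b3⟩ := conj_rel.{u} π hM τ⁻¹ (by
      rw [hMs, map_inv, inv_inv]; exact ht.conj')
    refine ⟨M ⊔ Subgroup.zpowers τ, hM.sup ⟨{τ}, by simp [Subgroup.zpowers_eq_closure]⟩, ?_,
      W ∪ W₁ ∪ W₂, (hW.union a1).union b1, ?_, fun H _ φ hφ => ?_⟩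
    · rw [Subgroup.map_sup, MonoidHom.map_zpowers, hMs]
      exact cycStep_eq ht
    · rintro w ((h | h) | h)
      exacts [hW' w h, a2 w h, b2 w h]
    · obtain ⟨s', c1, c2, c3⟩ := hs H φ fun w h => hφ w (Or.inl (Or.inl h))
      have k1 := a3 H φ fun w h => hφ w (Or.inl (Or.inr h))
      have k2 := b3 H φ fun w h => hφ w (Or.inr h)
      rw [map_inv, inv_inv] at k2
      have k3 : (s'.last, M.map φ ⊔ Subgroup.zpowers (φ τ)) ∈ cyclicStep H := by
        rw [c2]; exact (cycStep_sup k1 k2).cycQ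
      refine ⟨s'.snoc _ k3, by simp [c1], ?_, by simp [c3]⟩
      rw [RelSeries.last_snoc, Subgroup.map_sup, MonoidHom.map_zpowers]

theorem index_rel (hE : Group.FG E) (π : E →* Q) (hπ : Function.Surjective π) (M : Subgroup E)
    (hM : (M.map π).FiniteIndex) :
    ∃ W : Set E, W.Finite ∧ (∀ w ∈ W, π w = 1) ∧ ∀ (H : Type u) [Group H] (φ : E →* H),
      Function.Surjective φ → (∀ w ∈ W, φ w = 1) →
        (M.map φ).FiniteIndex ∧ (M.map φ).index ≤ (M.map π).index := by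
  obtain ⟨X, hX, hXf⟩ := Group.fg_iff.1 hE
  have h1 : ∀ q : Q ⧸ M.map π, ∃ c : E, (π c : Q ⧸ M.map π) = q := fun q => by
    obtain ⟨y, rfl⟩ := QuotientGroup.mk_surjective q
    obtain ⟨c, rfl⟩ := hπ y
    exact ⟨c, rfl⟩
  choose c hc using h1
  have h2 : ∀ e : E, ∃ m ∈ M, π m = (π (c (π e)))⁻¹ * π e := fun e =>
    QuotientGroup.eq.1 (hc (π e))
  choose m hm hm' using h2
  let r : E → E := fun e => (m e)⁻¹ * ((c (π e))⁻¹ * e)
  have hfin : Finite (Q ⧸ M.map π) := Subgroup.finite_quotient_of_finiteIndex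
  refine ⟨r '' insert 1 (image2 (fun x q => x * c q) (X ∪ X⁻¹) univ),
    (((hXf.union hXf.inv).image2 _ finite_univ).insert _).image _, ?_, fun H _ φ hφ hW => ?_⟩
  · rintro _ ⟨e, -, rfl⟩
    simp [r, hm']
  · have k0 : ∀ e, φ (r e) = 1 → (φ (c (π e)) : H ⧸ M.map φ) = φ e := by
      intro e he
      refine QuotientGroup.eq.2 ⟨m e, hm e, ?_⟩
      simpa [r, inv_mul_eq_one] using he
    have k1 : ∀ x ∈ X ∪ X⁻¹, ∀ e : E, (∃ q, (φ (c q) : H ⧸ M.map φ) = φ e) →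
        ∃ q, (φ (c q) : H ⧸ M.map φ) = φ (x * e) := by
      rintro x hx e ⟨q, hq⟩
      refine ⟨_, (k0 _ (hW _ ⟨x * c q, Or.inr ⟨x, hx, q, trivial, rfl⟩, rfl⟩)).trans ?_⟩
      rw [QuotientGroup.eq] at hq ⊢
      simpa [mul_assoc] using hq
    have k2 : ∀ e : E, ∃ q, (φ (c q) : H ⧸ M.map φ) = φ e := by
      intro e
      have he : e ∈ Subgroup.closure X := hX ▸ Subgroup.mem_top e
      induction he using Subgroup.closure_induction_left with
      | one => exact ⟨_, k0 _ (hW _ ⟨1, Or.inl rfl, rfl⟩)⟩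
      | mul_left x hx y _ ih => exact k1 x (Or.inl hx) y ih
      | inv_mul_cancel x hx y _ ih => exact k1 x⁻¹ (Or.inr (by simpa using hx)) y ih
    have k3 : Function.Surjective fun q => (φ (c q) : H ⧸ M.map φ) := by
      intro y
      obtain ⟨y, rfl⟩ := QuotientGroup.mk_surjective y
      obtain ⟨e, rfl⟩ := hφ y
      exact k2 e
    have : Finite (H ⧸ M.map φ) := Finite.of_surjective _ k3
    exact ⟨Subgroup.finiteIndex_of_finite_quotient, Nat.card_le_card_of_surjective _ k3⟩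

theorem VirtPolyLE.rel (hE : Group.FG E) (π : E →* Q) (hπ : Function.Surjective π) {N : ℕ}
    (h : VirtPolyLE Q N) :
    ∃ W : Set E, W.Finite ∧ (∀ w ∈ W, π w = 1) ∧ ∀ (H : Type u) [Group H] (φ : E →* H),
      Function.Surjective φ → (∀ w ∈ W, φ w = 1) → VirtPolyLE H N := by
  obtain ⟨s, h0, hf, h1, h2⟩ := h
  obtain ⟨M, -, hM, W, a1, a2, a3⟩ := series_rel.{u} π hπ s h0 (Fin.last _)
  have hM' : M.map π = s.last := hM
  obtain ⟨W', b1, b2, b3⟩ := index_rel.{u} hE π hπ M (hM' ▸ hf)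
  refine ⟨W ∪ W', a1.union b1, fun w hw => hw.elim (a2 w) (b2 w), fun H _ φ hφ hW => ?_⟩
  obtain ⟨s', c1, c2, c3⟩ := a3 H φ fun w hw => hW w (Or.inl hw)
  obtain ⟨d1, d2⟩ := b3 H φ hφ fun w hw => hW w (Or.inr hw)
  refine ⟨s', c1, c2 ▸ d1, by simpa [c3] using h1, ?_⟩
  rw [c2]
  exact d2.trans (hM' ▸ h2)

end Vale.Agent.N188G
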